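import Vale.Agent.P344.Scalar

/-!
P344: counting additive gates by supports and by lines of full support.
-/

namespace Vale.Agent.P344

variable {n : ℕ}

/-- the labelling `l` is constant on the support of `v` -/
def Mono (l : Fin n → ℕ) (v : Fin n → ℂ) : Prop := ∀ a b, v a ≠ 0 → v b ≠ 0 → l a = l b

theorem merge (l : Fin n → ℕ) (u v w : Fin n → ℂ) (hu : Mono l u) (hv : Mono l v)
    (hw : ∀ k, w k ≠ 0 → u k ≠ 0 ∨ v k ≠ 0) :
    ∃ l' : Fin n → ℕ, (∀ x, Mono l x → Mono l' x) ∧ Mono l' w ∧
      (Finset.univ.image l).card ≤ (Finset.univ.image l').card + 1 := by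
  classical
  by_cases h1 : ∃ a0, u a0 ≠ 0
  · by_cases h2 : ∃ b0, v b0 ≠ 0
    · obtain ⟨a0, ha0⟩ := h1
      obtain ⟨b0, hb0⟩ := h2
      refine ⟨fun k => if l k = l b0 then l a0 else l k, ?_, ?_, ?_⟩
      · intro x hx a b ha hb
        simp only [hx a b ha hb]
      · have key : ∀ a, w a ≠ 0 → (if l a = l b0 then l a0 else l a) = l a0 := by
          intro a ha
          rcases hw a ha with h | h
          · rw [hu a a0 h ha0]
            split_ifs <;> rfl
          · rw [hv a b0 h hb0]
            simp
        intro a b ha hb
        simp only []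
        rw [key a ha, key b hb]
      · have hsub : Finset.univ.image l ⊆
            insert (l b0) (Finset.univ.image (fun k => if l k = l b0 then l a0 else l k)) := by
          intro y hy
          obtain ⟨k, _, rfl⟩ := Finset.mem_image.1 hy
          by_cases hk : l k = l b0
          · rw [hk]; exact Finset.mem_insert_self _ _
          · apply Finset.mem_insert_of_mem
            apply Finset.mem_image.2
            exact ⟨k, Finset.mem_univ _, by simp [hk]⟩
        exact le_trans (Finset.card_le_card hsub) (Finset.card_insert_le _ _)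
    · refine ⟨l, fun x hx => hx, ?_, Nat.le_succ _⟩
      intro a b ha hb
      have ha' : u a ≠ 0 := by
        rcases hw a ha with h | h
        · exact h
        · exact absurd ⟨a, h⟩ h2
      have hb' : u b ≠ 0 := by
        rcases hw b hb with h | h
        · exact h
        · exact absurd ⟨b, h⟩ h2
      exact hu a b ha' hb'
  · refine ⟨l, fun x hx => hx, ?_, Nat.le_succ _⟩
    intro a b ha hb
    have ha' : v a ≠ 0 := by
      rcases hw a ha with h | h
      · exact absurd ⟨a, h⟩ h1
      · exact h
    have hb' : v b ≠ 0 := by
      rcases hw b hb with h | h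
      · exact absurd ⟨b, h⟩ h1
      · exact h
    exact hv a b ha' hb'

/-- the invariant carried along a run; `A` is the number of additive gates used so far -/
def Inv (vals : List (Fin n → ℂ)) (A : ℕ) : Prop :=
  ∃ (l : Fin n → ℕ) (R : Finset (Fin n → ℂ)),
    (∀ v ∈ vals, Mono l v) ∧
    (∀ v ∈ vals, (∀ k, v k ≠ 0) → ∃ r ∈ R, ∃ c : ℂ, v = c • r) ∧
    (R.Nonempty → ∀ a b, l a = l b) ∧
    n + R.card ≤ (Finset.univ.image l).card + A + (if R.Nonempty then 1 else 0)

theorem mono_zero (l : Fin n → ℕ) : Mono l (0 : Fin n → ℂ) := by
  intro a b ha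
  exact absurd rfl ha

theorem mono_of (l : Fin n → ℕ) (vals : List (Fin n → ℂ)) (h : ∀ v ∈ vals, Mono l v)
    (u : Fin n → ℂ) (hu : u ∈ vals ∨ u = 0) : Mono l u := by
  rcases hu with h1 | h1
  · exact h _ h1
  · rw [h1]; exact mono_zero l

theorem inv_scalar (hn : 0 < n) (vals : List (Fin n → ℂ)) (A : ℕ) (h : Inv vals A) (c : ℂ)
    (u : Fin n → ℂ) (hu : u ∈ vals ∨ u = 0) : Inv (vals ++ [c • u]) A := by
  obtain ⟨l, R, h1, h2, h3, h4⟩ := h
  refine ⟨l, R, ?_, ?_, h3, h4⟩
  · intro v hv
    rcases List.mem_append.1 hv with hv | hv
    · exact h1 v hv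
    · rw [List.mem_singleton.1 hv]
      intro a b ha hb
      apply mono_of l vals h1 u hu a b
      · intro h0; apply ha; rw [Pi.smul_apply, h0, smul_zero]
      · intro h0; apply hb; rw [Pi.smul_apply, h0, smul_zero]
  · intro v hv hfull
    rcases List.mem_append.1 hv with hv | hv
    · exact h2 v hv hfull
    · rw [List.mem_singleton.1 hv] at hfull ⊢
      have hfull' : ∀ k, u k ≠ 0 := by
        intro k h0
        apply hfull k
        rw [Pi.smul_apply, h0, smul_zero]
      rcases hu with hm | hm
      · obtain ⟨r, hr, c', hc'⟩ := h2 _ hm hfull'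
        refine ⟨r, hr, c * c', ?_⟩
        rw [hc', smul_smul]
      · exact absurd (by rw [hm]; rfl) (hfull' ⟨0, hn⟩)

theorem inv_additive (hn : 0 < n) (vals : List (Fin n → ℂ)) (A : ℕ) (h : Inv vals A)
    (u v w : Fin n → ℂ) (hu : u ∈ vals ∨ u = 0) (hv : v ∈ vals ∨ v = 0)
    (hw : ∀ k, w k ≠ 0 → u k ≠ 0 ∨ v k ≠ 0) : Inv (vals ++ [w]) (A + 1) := by
  classical
  obtain ⟨l, R, h1, h2, h3, h4⟩ := h
  have hmu := mono_of l vals h1 u hu
  have hmv := mono_of l vals h1 v hv
  by_cases hR : R.Nonempty
  · -- the labelling is already constant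
    refine ⟨l, insert w R, ?_, ?_, fun _ => h3 hR, ?_⟩
    · intro x _ a b _ _
      exact h3 hR a b
    · intro x hx hfull
      rcases List.mem_append.1 hx with hx | hx
      · obtain ⟨r, hr, c, hc⟩ := h2 x hx hfull
        exact ⟨r, Finset.mem_insert_of_mem hr, c, hc⟩
      · rw [List.mem_singleton.1 hx]
        exact ⟨w, Finset.mem_insert_self _ _, 1, (one_smul _ _).symm⟩
    · have := Finset.card_insert_le w R
      simp only [hR, if_true, Finset.insert_nonempty] at h4 ⊢
      omega
  · have hR0 : R = ∅ := Finset.not_nonempty_iff_eq_empty.1 hR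
    subst hR0
    by_cases hfw : ∀ k, w k ≠ 0
    · -- first value of full support
      refine ⟨fun _ => 0, {w}, ?_, ?_, fun _ _ _ => rfl, ?_⟩
      · intro x _ a b _ _
        rfl
      · intro x hx hfull
        rcases List.mem_append.1 hx with hx | hx
        · obtain ⟨r, hr, _⟩ := h2 x hx hfull
          exact absurd hr (Finset.notMem_empty r)
        · rw [List.mem_singleton.1 hx]
          exact ⟨w, Finset.mem_singleton_self _, 1, (one_smul _ _).symm⟩
      · have hcard : (Finset.univ.image l).card ≤ 2 := by
          have hsub : Finset.univ.image l ⊆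
              (Finset.univ.filter (fun k => u k ≠ 0)).image l ∪
              (Finset.univ.filter (fun k => v k ≠ 0)).image l := by
            intro y hy
            obtain ⟨k, _, rfl⟩ := Finset.mem_image.1 hy
            rcases hw k (hfw k) with hk | hk
            · exact Finset.mem_union_left _ (Finset.mem_image.2 ⟨k, by simp [hk], rfl⟩)
            · exact Finset.mem_union_right _ (Finset.mem_image.2 ⟨k, by simp [hk], rfl⟩)
          have c1 : ((Finset.univ.filter (fun k => u k ≠ 0)).image l).card ≤ 1 := by
            rw [Finset.card_le_one]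
            intro a ha b hb
            obtain ⟨a', ha', rfl⟩ := Finset.mem_image.1 ha
            obtain ⟨b', hb', rfl⟩ := Finset.mem_image.1 hb
            exact hmu a' b' (Finset.mem_filter.1 ha').2 (Finset.mem_filter.1 hb').2
          have c2 : ((Finset.univ.filter (fun k => v k ≠ 0)).image l).card ≤ 1 := by
            rw [Finset.card_le_one]
            intro a ha b hb
            obtain ⟨a', ha', rfl⟩ := Finset.mem_image.1 ha
            obtain ⟨b', hb', rfl⟩ := Finset.mem_image.1 hb
            exact hmv a' b' (Finset.mem_filter.1 ha').2 (Finset.mem_filter.1 hb').2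
          have := Finset.card_le_card hsub
          have := Finset.card_union_le ((Finset.univ.filter (fun k => u k ≠ 0)).image l)
            ((Finset.univ.filter (fun k => v k ≠ 0)).image l)
          omega
        have hpos : 1 ≤ (Finset.univ.image (fun _ : Fin n => (0 : ℕ))).card := by
          apply Finset.card_pos.2
          exact ⟨0, Finset.mem_image.2 ⟨⟨0, hn⟩, Finset.mem_univ _, rfl⟩⟩
        simp only [Finset.not_nonempty_empty, if_false, Finset.card_empty,
          Finset.singleton_nonempty, if_true, Finset.card_singleton] at h4 ⊢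
        omega
    · obtain ⟨l', m1, m2, m3⟩ := merge l u v w hmu hmv hw
      refine ⟨l', ∅, ?_, ?_, fun h => absurd h Finset.not_nonempty_empty, ?_⟩
      · intro x hx
        rcases List.mem_append.1 hx with hx | hx
        · exact m1 x (h1 x hx)
        · rw [List.mem_singleton.1 hx]; exact m2
      · intro x hx hfull
        rcases List.mem_append.1 hx with hx | hx
        · exact h2 x hx hfull
        · rw [List.mem_singleton.1 hx] at hfull
          exact absurd hfull hfw
      · simp only [Finset.not_nonempty_empty, if_false, Finset.card_empty] at h4 ⊢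
        omega

theorem inv_run (hn : 0 < n) (gs : List Gate) : ∀ (vals : List (Fin n → ℂ)) (A : ℕ),
    Inv vals A → Inv (run vals gs) (A + adds gs) := by
  induction gs with
  | nil => intro vals A h; exact h
  | cons g gs ih =>
    intro vals A h
    cases g with
    | add i j =>
      have := ih _ _ (inv_additive hn vals A h _ _ (Gate.eval vals (.add i j))
        (getD_mem_or_zero vals i) (getD_mem_or_zero vals j) (by
          intro k hk
          by_contra hcon
          rw [not_or, not_not, not_not] at hcon
          apply hk
          simp only [Gate.eval, Pi.add_apply]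
          rw [hcon.1, hcon.2, add_zero]))
      simp only [run, adds]
      rw [show A + (adds gs + 1) = A + 1 + adds gs by omega]
      exact this
    | sub i j =>
      have := ih _ _ (inv_additive hn vals A h _ _ (Gate.eval vals (.sub i j))
        (getD_mem_or_zero vals i) (getD_mem_or_zero vals j) (by
          intro k hk
          by_contra hcon
          rw [not_or, not_not, not_not] at hcon
          apply hk
          simp only [Gate.eval, Pi.sub_apply]
          rw [hcon.1, hcon.2, sub_zero]))
      simp only [run, adds]
      rw [show A + (adds gs + 1) = A + 1 + adds gs by omega]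
      exact this
    | smul c i =>
      have := ih _ _ (inv_scalar hn vals A h c _ (getD_mem_or_zero vals i))
      simp only [run, adds]
      exact this

end Vale.Agent.P344
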