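import Mathlib

/-!
P344: linear circuits over the complex numbers (gates u+v, u-v, c*u) and basic facts.
-/

namespace Vale.Agent.P344

/-- A gate refers to earlier nodes by their index; an index that is out of range reads the
constant `0`. -/
inductive Gate where
  | add (i j : ℕ)
  | sub (i j : ℕ)
  | smul (c : ℂ) (i : ℕ)

variable {M : Type*} [AddCommGroup M] [Module ℂ M]

/-- value computed by a gate from the list of values computed so far -/
def Gate.eval (vals : List M) : Gate → M
  | .add i j => vals.getD i 0 + vals.getD j 0
  | .sub i j => vals.getD i 0 - vals.getD j 0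
  | .smul c i => c • vals.getD i 0

/-- run a circuit: every gate appends its value to the list of nodes -/
def run : List M → List Gate → List M
  | vals, [] => vals
  | vals, g :: gs => run (vals ++ [g.eval vals]) gs

/-- number of additive gates -/
def adds : List Gate → ℕ
  | [] => 0
  | .add _ _ :: gs => adds gs + 1
  | .sub _ _ :: gs => adds gs + 1
  | .smul _ _ :: gs => adds gs

/-- number of scalar gates -/
def muls : List Gate → ℕ
  | [] => 0
  | .add _ _ :: gs => muls gs
  | .sub _ _ :: gs => muls gs
  | .smul _ _ :: gs => muls gs + 1

theorem adds_add_muls (gs : List Gate) : adds gs + muls gs = gs.length := by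
  induction gs with
  | nil => rfl
  | cons g gs ih =>
    cases g <;> simp [adds, muls] <;> omega

theorem getD_mem_or_zero (vals : List M) (i : ℕ) : vals.getD i 0 ∈ vals ∨ vals.getD i 0 = 0 := by
  by_cases h : i < vals.length
  · left
    rw [List.getD_eq_getElem _ _ h]
    exact List.getElem_mem h
  · right
    exact List.getD_eq_default _ _ (by omega)

section naturality
variable {M' : Type*} [AddCommGroup M'] [Module ℂ M']

theorem getD_map_zero (φ : M →ₗ[ℂ] M') (vals : List M) (i : ℕ) :
    (vals.map φ).getD i 0 = φ (vals.getD i 0) := by
  have := List.getD_map (l := vals) (n := i) (d := (0 : M)) (f := φ)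
  simpa using this

theorem eval_map (φ : M →ₗ[ℂ] M') (vals : List M) (g : Gate) :
    g.eval (vals.map φ) = φ (g.eval vals) := by
  cases g with
  | add i j => simp only [Gate.eval]; rw [getD_map_zero, getD_map_zero, map_add]
  | sub i j => simp only [Gate.eval]; rw [getD_map_zero, getD_map_zero, map_sub]
  | smul c i => simp only [Gate.eval]; rw [getD_map_zero, map_smul]

theorem run_map (φ : M →ₗ[ℂ] M') (gs : List Gate) (vals : List M) :
    run (vals.map φ) gs = (run vals gs).map φ := by
  induction gs generalizing vals with
  | nil => rfl
  | cons g gs ih =>
    simp only [run]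
    rw [← ih]
    simp [eval_map]

end naturality

end Vale.Agent.P344
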