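import Vale.Agent.P344.Additive

/-!
P344: putting the two counts together.
-/

namespace Vale.Agent.P344

variable {n : ℕ}

theorem inv_inputs (hn : 2 ≤ n) : Inv (inputs n) 0 := by
  classical
  refine ⟨fun k => k.val, ∅, ?_, ?_, fun h => absurd h Finset.not_nonempty_empty, ?_⟩
  · intro v hv a b ha hb
    obtain ⟨k, rfl⟩ := (List.mem_ofFn' _ _).1 hv
    have h1 : a = k := by
      by_contra h
      exact ha (by simp [Pi.single_apply, h])
    have h2 : b = k := by
      by_contra h
      exact hb (by simp [Pi.single_apply, h])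
    rw [h1, h2]
  · intro v hv hfull
    obtain ⟨k, rfl⟩ := (List.mem_ofFn' _ _).1 hv
    exfalso
    by_cases hk : k = ⟨0, by omega⟩
    · apply hfull ⟨1, by omega⟩
      rw [hk]
      simp [Pi.single_apply, Fin.ext_iff]
    · apply hfull ⟨0, by omega⟩
      simp [Pi.single_apply, Ne.symm hk]
  · have : (Finset.univ.image (fun k : Fin n => k.val)).card = n := by
      rw [Finset.card_image_of_injective _ Fin.val_injective]
      simp
    simp [this]

theorem adds_lower (hn : 2 ≤ n) (ζ : ℂ) (hζ : IsPrimitiveRoot ζ n) (gs : List Gate)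
    (hrows : ∀ j : Fin n, row n ζ j ∈ run (inputs n) gs) : 2 * n ≤ adds gs + 2 := by
  classical
  obtain ⟨l, R, _, h2, h3, h4⟩ := inv_run (by omega) gs _ _ (inv_inputs hn)
  have hz : ζ ≠ 0 := hζ.ne_zero (by omega)
  have hfull : ∀ (j k : Fin n), row n ζ j k ≠ 0 := fun j k => pow_ne_zero _ hz
  choose r hr c hc using fun j => h2 _ (hrows j) (hfull j)
  have hinj : Function.Injective r := by
    intro i j hij
    have k0 : Fin n := ⟨0, by omega⟩
    have hci : c i ≠ 0 := by
      intro h0
      apply hfull i ⟨0, by omega⟩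
      rw [hc i, h0, zero_smul]; rfl
    -- both rows are multiples of the same vector
    have e0i := congrFun (hc i) ⟨0, by omega⟩
    have e0j := congrFun (hc j) ⟨0, by omega⟩
    have e1i := congrFun (hc i) ⟨1, by omega⟩
    have e1j := congrFun (hc j) ⟨1, by omega⟩
    simp only [row, Pi.smul_apply, smul_eq_mul, mul_zero, pow_zero, mul_one] at e0i e0j e1i e1j
    rw [← hij] at e0j e1j
    have hcc : c i = c j := by
      have hr0 : r i ⟨0, by omega⟩ ≠ 0 := by
        intro h0
        rw [h0, mul_zero] at e0i
        exact one_ne_zero e0i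
      exact mul_right_cancel₀ hr0 (e0i.symm.trans e0j)
    have : ζ ^ (i : ℕ) = ζ ^ (j : ℕ) := by rw [e1i, e1j, hcc]
    exact Fin.ext (hζ.pow_inj i.2 j.2 this)
  have hcard : n ≤ R.card := by
    have := Finset.card_le_card_of_injOn (s := (Finset.univ : Finset (Fin n))) (t := R) r
      (fun j _ => hr j) (hinj.injOn)
    simpa using this
  have hRne : R.Nonempty := by
    apply Finset.card_pos.1
    omega
  have hlab : (Finset.univ.image l).card ≤ 1 := by
    rw [Finset.card_le_one]
    intro a ha b hb
    obtain ⟨a', _, rfl⟩ := Finset.mem_image.1 ha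
    obtain ⟨b', _, rfl⟩ := Finset.mem_image.1 hb
    exact h3 hRne a' b'
  simp only [hRne, if_true] at h4
  omega

/-- the divisor count is at most twice the integer square root -/
theorem card_divisors_le (m : ℕ) : m.divisors.card ≤ 2 * Nat.sqrt m := by
  classical
  set s := Nat.sqrt m with hs
  let S := m.divisors.filter (fun d => d ≤ s)
  have hS : S.card ≤ s := by
    have : S ⊆ Finset.Icc 1 s := by
      intro d hd
      have h1 := Finset.mem_filter.1 hd
      exact Finset.mem_Icc.2 ⟨Nat.pos_of_mem_divisors h1.1, h1.2⟩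
    simpa using Finset.card_le_card this
  have hsub : m.divisors ⊆ S ∪ S.image (fun e => m / e) := by
    intro d hd
    by_cases h : d ≤ s
    · exact Finset.mem_union_left _ (Finset.mem_filter.2 ⟨hd, h⟩)
    · apply Finset.mem_union_right
      have hdm := (Nat.mem_divisors.1 hd)
      have hd0 : 0 < d := Nat.pos_of_mem_divisors hd
      apply Finset.mem_image.2
      refine ⟨m / d, Finset.mem_filter.2 ⟨?_, ?_⟩, ?_⟩
      · exact Nat.mem_divisors.2 ⟨Nat.div_dvd_of_dvd hdm.1, hdm.2⟩
      · by_contra hcon
        have h1 : s + 1 ≤ d := by omega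
        have h2 : s + 1 ≤ m / d := by omega
        have h3 : (s + 1) * (s + 1) ≤ d * (m / d) := Nat.mul_le_mul h1 h2
        rw [Nat.mul_div_cancel' hdm.1] at h3
        have h4 := Nat.sqrt_lt'.1 (Nat.lt_succ_self (Nat.sqrt m))
        rw [← hs] at h4
        nlinarith
      · exact Nat.div_div_self hdm.1 hdm.2
  have h1 := Finset.card_le_card hsub
  have h2 := Finset.card_union_le S (S.image (fun e => m / e))
  have h3 : (S.image (fun e => m / e)).card ≤ S.card := Finset.card_image_le
  omega

/-- evaluation of a coefficient vector at a point, as a linear map -/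
noncomputable def evalAt (x : Fin n → ℂ) : (Fin n → ℂ) →ₗ[ℂ] ℂ where
  toFun v := ∑ k, v k * x k
  map_add' u v := by simp [add_mul, Finset.sum_add_distrib]
  map_smul' c v := by simp [Finset.mul_sum, mul_assoc]

theorem map_evalAt_inputs (x : Fin n → ℂ) : (inputs n).map (evalAt x) = List.ofFn x := by
  classical
  simp only [inputs, List.map_ofFn]
  congr 1
  funext k
  simp [evalAt, Pi.single_apply]

/-- if a circuit computes `x ↦ (∑ k, ζ^(j k) x k)_j` on all inputs, all rows occur among its nodes
when it is run on the coordinate forms -/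
theorem rows_mem (hn : 0 < n) (ζ : ℂ) (gs : List Gate) (out : Fin n → ℕ)
    (h : ∀ (x : Fin n → ℂ) (j : Fin n),
      (run (List.ofFn x) gs).getD (out j) 0 = ∑ k : Fin n, ζ ^ ((j : ℕ) * (k : ℕ)) * x k)
    (j : Fin n) : row n ζ j ∈ run (inputs n) gs := by
  classical
  have key : (run (inputs n) gs).getD (out j) 0 = row n ζ j := by
    funext k
    have h1 := h (Pi.single k 1) j
    rw [← map_evalAt_inputs, run_map, getD_map_zero] at h1
    simp only [evalAt, LinearMap.coe_mk, AddHom.coe_mk, Pi.single_apply, mul_ite, mul_one, mul_zero,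
      Finset.sum_ite_eq', Finset.mem_univ, if_true] at h1
    exact h1
  rcases getD_mem_or_zero (run (inputs n) gs) (out j) with h1 | h1
  · rw [key] at h1; exact h1
  · exfalso
    rw [key] at h1
    have := congrFun h1 ⟨0, hn⟩
    simp [row] at this

end Vale.Agent.P344

namespace Vale.Agent.P344

/-- The circuit `gs` (nodes `0..n-1` are the inputs, gate number `t` is node `n+t`, any other index
reads the constant `0`) computes the unnormalised Fourier transform `F_n x` for every input `x`;
`out j` is the node designated as the `j`-th output. -/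
def Computes (n : ℕ) (gs : List Gate) : Prop :=
  ∃ out : Fin n → ℕ, ∀ (x : Fin n → ℂ) (j : Fin n),
    (run (List.ofFn x) gs).getD (out j) 0 =
      ∑ k : Fin n, Complex.exp (2 * Real.pi * Complex.I / n) ^ ((j : ℕ) * (k : ℕ)) * x k

end Vale.Agent.P344
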