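import Vale.Agent.P344.Circuit

/-!
P344: counting scalar gates by the dimension of rational spans.
-/

namespace Vale.Agent.P344

open Polynomial

section span
variable {M : Type*} [AddCommGroup M] [Module ℂ M] [Module ℚ M]

theorem getD_mem_span (vals : List M) (S : Submodule ℚ M) (h : ∀ v ∈ vals, v ∈ S) (i : ℕ) :
    vals.getD i 0 ∈ S := by
  rcases getD_mem_or_zero vals i with h1 | h1
  · exact h _ h1
  · rw [h1]; exact S.zero_mem

theorem span_inv (gs : List Gate) : ∀ (vals : List M) (G : Finset M),
    (∀ v ∈ vals, v ∈ Submodule.span ℚ (G : Set M)) →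
    ∃ G' : Finset M, G'.card ≤ G.card + muls gs ∧
      ∀ v ∈ run vals gs, v ∈ Submodule.span ℚ (G' : Set M) := by
  classical
  induction gs with
  | nil =>
    intro vals G h
    exact ⟨G, by simp [muls], h⟩
  | cons g gs ih =>
    intro vals G h
    cases g with
    | add i j =>
      obtain ⟨G', h1, h2⟩ := ih (vals ++ [Gate.eval vals (.add i j)]) G (by
        intro v hv
        rcases List.mem_append.1 hv with hv | hv
        · exact h v hv
        · rw [List.mem_singleton.1 hv]
          exact Submodule.add_mem _ (getD_mem_span vals _ h i) (getD_mem_span vals _ h j))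
      exact ⟨G', by simpa [muls] using h1, h2⟩
    | sub i j =>
      obtain ⟨G', h1, h2⟩ := ih (vals ++ [Gate.eval vals (.sub i j)]) G (by
        intro v hv
        rcases List.mem_append.1 hv with hv | hv
        · exact h v hv
        · rw [List.mem_singleton.1 hv]
          exact Submodule.sub_mem _ (getD_mem_span vals _ h i) (getD_mem_span vals _ h j))
      exact ⟨G', by simpa [muls] using h1, h2⟩
    | smul c i =>
      obtain ⟨G', h1, h2⟩ := ih (vals ++ [Gate.eval vals (.smul c i)])
        (insert (Gate.eval vals (.smul c i)) G) (by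
        intro v hv
        rcases List.mem_append.1 hv with hv | hv
        · exact Submodule.span_mono (by simp) (h v hv)
        · rw [List.mem_singleton.1 hv]
          exact Submodule.subset_span (by simp))
      refine ⟨G', ?_, h2⟩
      have := Finset.card_insert_le (Gate.eval vals (.smul c i)) G
      simp only [muls]
      omega

end span

/-- rational independence of the vectors `(μ_d ^ j)_d`, where `μ_d` runs over primitive `d`-th roots
of unity for all divisors `d` of `n` -/
theorem poly_zero_of_roots (n : ℕ) (hn : 0 < n) (μ : ℕ → ℂ)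
    (hμ : ∀ d ∈ n.divisors, IsPrimitiveRoot (μ d) d) (Q : ℚ[X]) (hdeg : Q.degree < n)
    (hroot : ∀ d ∈ n.divisors, aeval (μ d) Q = 0) : Q = 0 := by
  have h1 : ∀ d ∈ n.divisors, cyclotomic d ℚ ∣ Q := by
    intro d hd
    have hd0 : 0 < d := Nat.pos_of_mem_divisors hd
    rw [cyclotomic_eq_minpoly_rat (hμ d hd) hd0]
    exact minpoly.dvd ℚ (μ d) (hroot d hd)
  have h2 : ∏ d ∈ n.divisors, cyclotomic d ℚ ∣ Q := by
    apply Finset.prod_dvd_of_coprime _ h1
    intro a _ b _ hab
    exact cyclotomic.isCoprime_rat hab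
  rw [prod_cyclotomic_eq_X_pow_sub_one hn] at h2
  by_contra hQ
  have h3 := degree_le_of_dvd h2 hQ
  have h4 : (X ^ n - 1 : ℚ[X]).degree = n := by
    have := degree_X_pow_sub_C hn (1 : ℚ)
    simpa using this
  rw [h4] at h3
  exact absurd (lt_of_le_of_lt h3 hdeg) (lt_irrefl _)

end Vale.Agent.P344

namespace Vale.Agent.P344

open Polynomial

/-- the standard inputs: the coordinate forms -/
noncomputable def inputs (n : ℕ) : List (Fin n → ℂ) :=
  List.ofFn (fun k : Fin n => (Pi.single k 1 : Fin n → ℂ))

/-- the `j`-th row of the Fourier matrix built from `ζ` -/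
noncomputable def row (n : ℕ) (ζ : ℂ) (j : Fin n) : Fin n → ℂ := fun k => ζ ^ ((j : ℕ) * (k : ℕ))

theorem rat_valued_mem_span {D : Type*} [Fintype D] [DecidableEq D] (v : D → ℂ) (q : D → ℚ)
    (h : ∀ d, v d = (q d : ℂ)) :
    v ∈ Submodule.span ℚ
      ((Finset.univ.image (fun d : D => (Pi.single d 1 : D → ℂ)) : Finset (D → ℂ)) : Set (D → ℂ)) := by
  have hv : v = ∑ d, q d • (Pi.single d 1 : D → ℂ) := by
    funext e
    rw [Finset.sum_apply]
    simp only [Pi.smul_apply, Pi.single_apply]
    rw [Finset.sum_eq_single e]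
    · simp [h e, Rat.smul_def]
    · intro b _ hb
      simp [Ne.symm hb]
    · intro he
      exact absurd (Finset.mem_univ e) he
  rw [hv]
  apply Submodule.sum_mem
  intro d _
  apply Submodule.smul_mem
  apply Submodule.subset_span
  simp

theorem muls_lower (n : ℕ) (hn : 0 < n) (ζ : ℂ) (hζ : IsPrimitiveRoot ζ n) (gs : List Gate)
    (hrows : ∀ j : Fin n, row n ζ j ∈ run (inputs n) gs) :
    n ≤ n.divisors.card + muls gs := by
  classical
  let D := {d // d ∈ n.divisors}
  let idx : D → Fin n := fun d => ⟨d.1 % n, Nat.mod_lt _ hn⟩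
  let pr : (Fin n → ℂ) →ₗ[ℂ] (D → ℂ) := LinearMap.funLeft ℂ ℂ idx
  let G0 : Finset (D → ℂ) := Finset.univ.image (fun d : D => (Pi.single d 1 : D → ℂ))
  have hG0 : G0.card ≤ n.divisors.card := by
    refine le_trans Finset.card_image_le ?_
    simp [D]
  have h0 : ∀ v ∈ (inputs n).map pr, v ∈ Submodule.span ℚ (G0 : Set (D → ℂ)) := by
    intro v hv
    obtain ⟨w, hw, rfl⟩ := List.mem_map.1 hv
    obtain ⟨k, rfl⟩ := (List.mem_ofFn' _ _).1 hw
    apply rat_valued_mem_span _ (fun d => if idx d = k then 1 else 0)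
    intro d
    simp only [pr, LinearMap.funLeft_apply, Pi.single_apply]
    split_ifs <;> simp
  obtain ⟨G', hG', hspan⟩ := span_inv gs ((inputs n).map pr) G0 h0
  rw [run_map] at hspan
  have hmem : ∀ j : Fin n, pr (row n ζ j) ∈ Submodule.span ℚ (G' : Set (D → ℂ)) := by
    intro j
    exact hspan _ (List.mem_map.2 ⟨_, hrows j, rfl⟩)
  have hval : ∀ (j : Fin n) (d : D), pr (row n ζ j) d = (ζ ^ (d.1 : ℕ)) ^ (j : ℕ) := by
    intro j d
    simp only [pr, LinearMap.funLeft_apply, row, idx]
    rw [mul_comm, pow_mul, ← pow_eq_pow_mod _ hζ.pow_eq_one]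
  have hLI : LinearIndependent ℚ (fun j : Fin n => pr (row n ζ j)) := by
    rw [Fintype.linearIndependent_iff]
    intro g hg
    let Q : ℚ[X] := ∑ j : Fin n, C (g j) * X ^ (j : ℕ)
    have hQ : Q = 0 := by
      apply poly_zero_of_roots n hn (fun b => ζ ^ (n / b)) _ Q (degree_sum_fin_lt g)
      · intro b hb
        have hbn : n / b ∈ n.divisors := by
          rw [Nat.mem_divisors] at hb ⊢
          exact ⟨Nat.div_dvd_of_dvd hb.1, hb.2⟩
        have := congrFun hg ⟨n / b, hbn⟩
        rw [Finset.sum_apply] at this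
        simp only [Pi.smul_apply, hval, Pi.zero_apply, Rat.smul_def] at this
        simp only [Q, map_sum, map_mul, aeval_C, map_pow, aeval_X]
        simpa using this
      · intro b hb
        have hb' := (Nat.mem_divisors.1 hb).1
        exact hζ.pow hn (Nat.div_mul_cancel hb').symm
    intro j
    have := congrArg (fun P : ℚ[X] => P.coeff (j : ℕ)) hQ
    simp only [Q, finsetSum_coeff, coeff_C_mul, coeff_X_pow, coeff_zero] at this
    rw [Finset.sum_eq_single j] at this
    · simpa using this
    · intro b _ hb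
      have : (j : ℕ) ≠ (b : ℕ) := fun h => hb (Fin.ext h.symm)
      simp [this]
    · intro h
      exact absurd (Finset.mem_univ j) h
  have h1 : Module.finrank ℚ (Submodule.span ℚ (Set.range (fun j : Fin n => pr (row n ζ j)))) = n := by
    rw [finrank_span_eq_card hLI]
    simp
  have h2 : Submodule.span ℚ (Set.range (fun j : Fin n => pr (row n ζ j))) ≤
      Submodule.span ℚ (G' : Set (D → ℂ)) := by
    rw [Submodule.span_le]
    rintro _ ⟨j, rfl⟩
    exact hmem j
  have h3 := Submodule.finrank_mono h2
  have h4 : Module.finrank ℚ (Submodule.span ℚ (G' : Set (D → ℂ))) ≤ G'.card :=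
    finrank_span_finset_le_card (R := ℚ) G'
  omega

end Vale.Agent.P344
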